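import Vale.Agent.P052.R3.H523.Key

/-! The inequality for the excess coordinates of two points near the same vertex. -/

open Finset

namespace Vale.Agent.P052.R3.H523

/-- from the polynomial inequalities to the key inequality -/
theorem poly_step {n κ ω A B E : ℝ} (hn0 : 0 ≤ n) (hn : n ≤ 8) (hκ : 0 ≤ κ) (hω : 0 ≤ ω)
    (hA : 0 < A) (hB : 0 < B) (hA1 : A ≤ 1) (hB1 : B ≤ 1) (hE : E ≤ n * κ * ω)
    (I1 : A * B ≤ E) (I2 : 0 ≤ n * (A * B) - A * (1 + n * ω) - B * (1 + n * κ) + E)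
    (I3 : 0 ≤ B ^ 2 * (1 + n * κ ^ 2) + A ^ 2 * (1 + n * ω ^ 2) + (n - 1) * (A * B) ^ 2 +
      2 * (A * B) * E - 2 * (A * B ^ 2) * (1 + n * κ) - 2 * (A ^ 2 * B) * (1 + n * ω))
    (I4 : 1 + n * κ ^ 2 ≤ A * (1 + n * κ)) (I5 : 1 + n * ω ^ 2 ≤ B * (1 + n * ω)) : False := by
  obtain ⟨nu, hnu0, hnu⟩ : ∃ nu : ℝ, 0 ≤ nu ∧ nu ^ 2 = n := ⟨√n, Real.sqrt_nonneg _,
    Real.sq_sqrt hn0⟩
  have hAB : 0 < A * B := mul_pos hA hB
  have hA' : A ≠ 0 := hA.ne'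
  have hB' : B ≠ 0 := hB.ne'
  refine key (nu := nu) (p := nu * κ / A) (q := nu * ω / B) (h := 1 / A - 1) (k := 1 / B - 1)
    hnu0 (by rw [hnu]; exact hn) (by positivity) (by positivity) ?_ ?_ ?_ ?_ ?_ ?_ ?_
  · rw [sub_nonneg, le_div_iff₀ hA]; linarith
  · rw [sub_nonneg, le_div_iff₀ hB]; linarith
  · have e : nu * κ / A * (nu * ω / B) = (n * κ * ω) / (A * B) := by
      rw [← hnu]; field_simp
    rw [e, le_div_iff₀ hAB]
    linarith
  · have e : (nu - nu * κ / A) * (nu - nu * ω / B) - (1 / A - 1 + (1 / B - 1) + 2) =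
        (n * (A * B) - A * (1 + n * ω) - B * (1 + n * κ) + n * κ * ω) / (A * B) := by
      rw [← hnu]; field_simp; ring
    have e2 : 0 ≤ (n * (A * B) - A * (1 + n * ω) - B * (1 + n * κ) + n * κ * ω) / (A * B) :=
      div_nonneg (by linarith) hAB.le
    linarith
  · have e : (1 / A - 1) ^ 2 + (1 / B - 1) ^ 2 + (nu - nu * κ / A - nu * ω / B) ^ 2 - 3 =
        (B ^ 2 * (1 + n * κ ^ 2) + A ^ 2 * (1 + n * ω ^ 2) + (n - 1) * (A * B) ^ 2 +
          2 * (A * B) * (n * κ * ω) - 2 * (A * B ^ 2) * (1 + n * κ) -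
          2 * (A ^ 2 * B) * (1 + n * ω)) / (A * B) ^ 2 := by
      rw [← hnu]; field_simp; ring
    have e3 : 2 * (A * B) * E ≤ 2 * (A * B) * (n * κ * ω) :=
      mul_le_mul_of_nonneg_left hE (by positivity)
    have e2 : 0 ≤ (B ^ 2 * (1 + n * κ ^ 2) + A ^ 2 * (1 + n * ω ^ 2) + (n - 1) * (A * B) ^ 2 +
          2 * (A * B) * (n * κ * ω) - 2 * (A * B ^ 2) * (1 + n * κ) -
          2 * (A ^ 2 * B) * (1 + n * ω)) / (A * B) ^ 2 :=
      div_nonneg (by linarith) (by positivity)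
    linarith
  · have e : nu * κ / A * (nu - nu * κ / A) - (1 / A - 1) * (1 + (1 / A - 1)) =
        (A * (1 + n * κ) - (1 + n * κ ^ 2)) / A ^ 2 := by
      rw [← hnu]; field_simp; ring
    have e2 : 0 ≤ (A * (1 + n * κ) - (1 + n * κ ^ 2)) / A ^ 2 :=
      div_nonneg (by linarith) (by positivity)
    linarith
  · have e : nu * ω / B * (nu - nu * ω / B) - (1 / B - 1) * (1 + (1 / B - 1)) =
        (B * (1 + n * ω) - (1 + n * ω ^ 2)) / B ^ 2 := by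
      rw [← hnu]; field_simp; ring
    have e2 : 0 ≤ (B * (1 + n * ω) - (1 + n * ω ^ 2)) / B ^ 2 :=
      div_nonneg (by linarith) (by positivity)
    linarith

/-- **Algebraic step.** -/
theorem alg {ι : Type*} [Fintype ι] (hn : Fintype.card ι ≤ 8) (e f : ι → ℝ) {κ ω : ℝ} (i₀ : ι)
    (he : ∀ i, 0 ≤ e i) (hf : ∀ i, 0 ≤ f i) (se : ∑ i, e i = 1 + Fintype.card ι * κ)
    (sf : ∑ i, f i = 1 + Fintype.card ι * ω) (se2 : ∑ i, e i ^ 2 = 1 + Fintype.card ι * κ ^ 2)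
    (sf2 : ∑ i, f i ^ 2 = 1 + Fintype.card ι * ω ^ 2) (hκ : 0 ≤ κ) (hω : 0 ≤ ω)
    (heM : ∀ i, e i ≤ e i₀) (hfM : ∀ i, f i ≤ f i₀) (he1 : e i₀ ≤ 1) (hf1 : f i₀ ≤ 1) :
    (Fintype.card ι : ℝ) * κ * ω < ∑ i, e i * f i := by
  classical
  by_contra hcon
  rw [not_lt] at hcon
  obtain ⟨n, hnd⟩ : ∃ n : ℝ, n = (Fintype.card ι : ℝ) := ⟨_, rfl⟩
  have hn8 : n ≤ 8 := by rw [hnd]; exact_mod_cast hn
  have hn0 : 0 ≤ n := by rw [hnd]; positivity
  rw [← hnd] at se sf se2 sf2 hcon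
  obtain ⟨A, hAd⟩ : ∃ A, A = e i₀ := ⟨_, rfl⟩
  obtain ⟨B, hBd⟩ : ∃ B, B = f i₀ := ⟨_, rfl⟩
  have hcard : ∑ _i : ι, (1 : ℝ) = n := by rw [hnd]; simp
  have hA : 0 < A := by
    by_contra hA
    rw [not_lt] at hA
    have h1 : ∑ i, e i ≤ 0 := sum_nonpos fun i _ => (heM i).trans (by rw [← hAd]; exact hA)
    have h2 : 0 ≤ n * κ := mul_nonneg hn0 hκ
    linarith
  have hB : 0 < B := by
    by_contra hB
    rw [not_lt] at hB
    have h1 : ∑ i, f i ≤ 0 := sum_nonpos fun i _ => (hfM i).trans (by rw [← hBd]; exact hB)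
    have h2 : 0 ≤ n * ω := mul_nonneg hn0 hω
    linarith
  have I1 : A * B ≤ ∑ i, e i * f i := by
    rw [hAd, hBd]
    exact single_le_sum (f := fun i => e i * f i) (fun i _ => mul_nonneg (he i) (hf i))
      (mem_univ i₀)
  have I2 : 0 ≤ n * (A * B) - A * (1 + n * ω) - B * (1 + n * κ) + ∑ i, e i * f i := by
    have h1 : 0 ≤ ∑ i, (A - e i) * (B - f i) := sum_nonneg fun i _ =>
      mul_nonneg (sub_nonneg.2 (by rw [hAd]; exact heM i)) (sub_nonneg.2 (by rw [hBd]; exact hfM i))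
    have h2 : ∑ i, (A - e i) * (B - f i) =
        (A * B) * ∑ _i : ι, (1 : ℝ) - A * ∑ i, f i - B * ∑ i, e i + ∑ i, e i * f i := by
      rw [mul_sum, mul_sum, mul_sum, ← sum_sub_distrib, ← sum_sub_distrib, ← sum_add_distrib]
      exact sum_congr rfl fun i _ => by ring
    rw [h2, hcard, se, sf] at h1
    linarith
  have I3 : 0 ≤ B ^ 2 * (1 + n * κ ^ 2) + A ^ 2 * (1 + n * ω ^ 2) + (n - 1) * (A * B) ^ 2 +
      2 * (A * B) * (∑ i, e i * f i) - 2 * (A * B ^ 2) * (1 + n * κ) -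
      2 * (A ^ 2 * B) * (1 + n * ω) := by
    have h1 : (A * B) ^ 2 ≤ ∑ i, (B * e i + A * f i - A * B) ^ 2 := by
      have h3 := single_le_sum (f := fun i => (B * e i + A * f i - A * B) ^ 2)
        (fun i _ => sq_nonneg _) (mem_univ i₀)
      refine le_trans (le_of_eq ?_) h3
      simp only [← hAd, ← hBd]
      ring
    have h2 : ∑ i, (B * e i + A * f i - A * B) ^ 2 =
        B ^ 2 * ∑ i, e i ^ 2 + A ^ 2 * ∑ i, f i ^ 2 + (A * B) ^ 2 * ∑ _i : ι, (1 : ℝ) +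
          2 * (A * B) * (∑ i, e i * f i) - 2 * (A * B ^ 2) * ∑ i, e i -
          2 * (A ^ 2 * B) * ∑ i, f i := by
      rw [mul_sum, mul_sum, mul_sum, mul_sum, mul_sum, mul_sum, ← sum_add_distrib,
        ← sum_add_distrib, ← sum_add_distrib, ← sum_sub_distrib, ← sum_sub_distrib]
      exact sum_congr rfl fun i _ => by ring
    rw [h2, hcard, se, sf, se2, sf2] at h1
    linarith
  have I4 : 1 + n * κ ^ 2 ≤ A * (1 + n * κ) := by
    rw [← se2, ← se, mul_sum]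
    refine sum_le_sum fun i _ => ?_
    rw [sq]
    exact mul_le_mul_of_nonneg_right (by rw [hAd]; exact heM i) (he i)
  have I5 : 1 + n * ω ^ 2 ≤ B * (1 + n * ω) := by
    rw [← sf2, ← sf, mul_sum]
    refine sum_le_sum fun i _ => ?_
    rw [sq]
    exact mul_le_mul_of_nonneg_right (by rw [hBd]; exact hfM i) (hf i)
  exact poly_step hn0 hn8 hκ hω hA hB (by rw [hAd]; exact he1) (by rw [hBd]; exact hf1) hcon I1 I2
    I3 I4 I5

end Vale.Agent.P052.R3.H523
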