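import Vale.Agent.P052.R3.H523.Alg

/-! Two points near the same vertex of a regular simplex are at distance less than the edge. -/

open Finset Module

namespace Vale.Agent.P052.R3.H523

variable {V P ι : Type*} [NormedAddCommGroup V] [InnerProductSpace ℝ V] [MetricSpace P]
  [NormedAddTorsor V P] [Fintype ι]

/-- distance of two points given by weights on a regular simplex -/
theorem dist_sq_comb {v : ι → P} (hv : ∀ i j, i ≠ j → dist (v i) (v j) = 1) {w₁ w₂ : ι → ℝ}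
    (h₁ : ∑ i, w₁ i = 1) (h₂ : ∑ i, w₂ i = 1) :
    dist (univ.affineCombination ℝ v w₁) (univ.affineCombination ℝ v w₂) ^ 2 =
      (∑ i, (w₁ i - w₂ i) ^ 2) / 2 := by
  classical
  rw [sq, EuclideanGeometry.dist_affineCombination v h₁ h₂]
  have h0 : ∑ i, (w₁ - w₂) i = 0 := by
    simp only [Pi.sub_apply, sum_sub_distrib, h₁, h₂, sub_self]
  have h3 : ∑ i, ∑ j, (w₁ - w₂) i * (w₁ - w₂) j * (dist (v i) (v j) * dist (v i) (v j)) =
      -∑ i, (w₁ i - w₂ i) ^ 2 := by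
    have h4 : ∀ i j, (w₁ - w₂) i * (w₁ - w₂) j * (dist (v i) (v j) * dist (v i) (v j)) =
        (w₁ - w₂) i * (w₁ - w₂) j - if i = j then (w₁ i - w₂ i) ^ 2 else 0 := by
      intro i j
      rcases eq_or_ne i j with rfl | hij
      · simp only [dist_self, mul_zero, if_true, Pi.sub_apply]; ring
      · rw [hv i j hij, if_neg hij]; ring
    simp only [h4, sum_sub_distrib, sum_ite_eq, mem_univ, if_true]
    simp only [← mul_sum, h0, mul_zero, sum_const_zero, zero_sub]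
  rw [h3]; ring

/-- the weights of a vertex -/
theorem comb_single [DecidableEq ι] (v : ι → P) (i : ι) :
    univ.affineCombination ℝ v (Pi.single i 1) = v i := by
  refine univ.affineCombination_of_eq_one_of_eq_zero _ v (mem_univ i) (by simp) ?_
  intro j _ hj
  simp [hj]

theorem sum_single [DecidableEq ι] (i : ι) : ∑ j, (Pi.single i (1 : ℝ) : ι → ℝ) j = 1 := by
  simp

theorem affineIndependent_regular {v : ι → P} (hv : ∀ i j, i ≠ j → dist (v i) (v j) = 1) :
    AffineIndependent ℝ v := by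
  rw [affineIndependent_iff_eq_of_fintype_affineCombination_eq]
  intro w₁ w₂ h₁ h₂ h
  have h3 := dist_sq_comb hv h₁ h₂
  rw [h, dist_self] at h3
  have h4 : ∑ i, (w₁ i - w₂ i) ^ 2 = 0 := by
    have : (0 : ℝ) ^ 2 = 0 := by norm_num
    rw [this] at h3
    linarith
  rw [sum_eq_zero_iff_of_nonneg fun i _ => sq_nonneg _] at h4
  funext i
  have := h4 i (mem_univ i)
  exact sub_eq_zero.1 (pow_eq_zero_iff two_ne_zero |>.1 this)

/-- the excess coordinates -/
theorem excess [FiniteDimensional ℝ V] (hcard : Fintype.card ι = finrank ℝ V + 1) {v : ι → P}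
    (hv : ∀ i j, i ≠ j → dist (v i) (v j) = 1) (x : P) : ∃ (t : ι → ℝ),
      x = univ.affineCombination ℝ v t ∧ ∑ i, t i = 1 ∧
        ∀ i, 1 - dist x (v i) ^ 2 = t i + (1 - ∑ j, t j ^ 2) / 2 := by
  classical
  have hai := affineIndependent_regular hv
  have htop := hai.affineSpan_eq_top_iff_card_eq_finrank_add_one.2 hcard
  have hx : x ∈ affineSpan ℝ (Set.range v) := by rw [htop]; trivial
  obtain ⟨t, ht, hxt⟩ := eq_affineCombination_of_mem_affineSpan_of_fintype hx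
  refine ⟨t, hxt, ht, fun i => ?_⟩
  have h1 : dist x (v i) ^ 2 = (∑ j, (t j - (Pi.single i (1 : ℝ) : ι → ℝ) j) ^ 2) / 2 := by
    rw [hxt, ← comb_single v i]
    have := dist_sq_comb hv ht (sum_single (ι := ι) i)
    rw [comb_single v i] at this ⊢
    exact this
  have h2 : ∑ j, (t j - (Pi.single i (1 : ℝ) : ι → ℝ) j) ^ 2 = ∑ j, t j ^ 2 - 2 * t i + 1 := by
    have h3 : ∀ j, (t j - (Pi.single i (1 : ℝ) : ι → ℝ) j) ^ 2 =
        t j ^ 2 + if j = i then 1 - 2 * t i else 0 := by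
      intro j
      rcases eq_or_ne j i with rfl | hji
      · simp only [Pi.single_eq_same, if_true]; ring
      · simp only [Pi.single_eq_of_ne hji, if_neg hji, sub_zero, add_zero]
    simp only [h3, sum_add_distrib, sum_ite_eq', mem_univ, if_true]
    ring
  rw [h1, h2]; ring

/-- **Geometric step.** -/
theorem geo [FiniteDimensional ℝ V] (hcard : Fintype.card ι = finrank ℝ V + 1)
    (h8 : Fintype.card ι ≤ 8) {v : ι → P} (hv : ∀ i j, i ≠ j → dist (v i) (v j) = 1) {x y : P}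
    (hx : ∀ i, dist x (v i) ≤ 1) (hy : ∀ i, dist y (v i) ≤ 1) (i₀ : ι)
    (hx0 : ∀ i, dist x (v i₀) ≤ dist x (v i)) (hy0 : ∀ i, dist y (v i₀) ≤ dist y (v i)) :
    dist x y < 1 := by
  classical
  obtain ⟨t, hxt, ht, het⟩ := excess hcard hv x
  obtain ⟨s, hys, hs, hes⟩ := excess hcard hv y
  obtain ⟨κ, hκ⟩ : ∃ κ : ℝ, κ = (1 - ∑ j, t j ^ 2) / 2 := ⟨_, rfl⟩
  obtain ⟨ω, hω⟩ : ∃ ω : ℝ, ω = (1 - ∑ j, s j ^ 2) / 2 := ⟨_, rfl⟩
  rw [← hκ] at het
  rw [← hω] at hes
  have hT : ∑ j, t j ^ 2 = 1 - 2 * κ := by rw [hκ]; ring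
  have hS : ∑ j, s j ^ 2 = 1 - 2 * ω := by rw [hω]; ring
  have hcs : ∑ _i : ι, (1 : ℝ) = Fintype.card ι := by simp
  -- nonnegativity of the parameters
  have pos : ∀ (t : ι → ℝ) (κ : ℝ), ∑ j, t j = 1 → ∑ j, t j ^ 2 = 1 - 2 * κ →
      (∀ i, 0 ≤ t i + κ) → 0 ≤ κ := by
    intro t κ ht hT h
    by_contra hc
    rw [not_le] at hc
    have h1 : ∀ i, 0 ≤ t i := fun i => by linarith [h i]
    have h2 : ∀ i, t i ≤ 1 := fun i => by
      rw [← ht]; exact single_le_sum (f := t) (fun j _ => h1 j) (mem_univ i)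
    have h3 : ∑ j, t j ^ 2 ≤ ∑ j, t j := sum_le_sum fun i _ => by
      rw [sq]; exact mul_le_of_le_one_left (h1 i) (h2 i)
    linarith
  have he : ∀ i, 0 ≤ t i + κ := fun i => by
    rw [← het]
    have : dist x (v i) ^ 2 ≤ 1 ^ 2 := pow_le_pow_left₀ dist_nonneg (hx i) 2
    linarith
  have hf : ∀ i, 0 ≤ s i + ω := fun i => by
    rw [← hes]
    have : dist y (v i) ^ 2 ≤ 1 ^ 2 := pow_le_pow_left₀ dist_nonneg (hy i) 2
    linarith
  have hκ0 : 0 ≤ κ := pos t κ ht hT he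
  have hω0 : 0 ≤ ω := pos s ω hs hS hf
  have sum1 : ∀ (t : ι → ℝ) (κ : ℝ), ∑ j, t j = 1 →
      ∑ i, (t i + κ) = 1 + Fintype.card ι * κ := by
    intro t κ ht
    rw [sum_add_distrib, ht, sum_const, card_univ, nsmul_eq_mul]
  have sum2 : ∀ (t : ι → ℝ) (κ : ℝ), ∑ j, t j = 1 → ∑ j, t j ^ 2 = 1 - 2 * κ →
      ∑ i, (t i + κ) ^ 2 = 1 + Fintype.card ι * κ ^ 2 := by
    intro t κ ht hT
    have h1 : ∀ i, (t i + κ) ^ 2 = t i ^ 2 + 2 * κ * t i + κ ^ 2 := fun i => by ring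
    simp only [h1, sum_add_distrib, ← mul_sum, ht, hT, sum_const, card_univ, nsmul_eq_mul]
    ring
  have key := alg h8 (fun i => t i + κ) (fun i => s i + ω) (κ := κ) (ω := ω) i₀ he hf
    (sum1 t κ ht) (sum1 s ω hs) (sum2 t κ ht hT) (sum2 s ω hs hS) hκ0 hω0
    (fun i => by
      rw [← het, ← het]
      have : dist x (v i₀) ^ 2 ≤ dist x (v i) ^ 2 := pow_le_pow_left₀ dist_nonneg (hx0 i) 2
      linarith)
    (fun i => by
      rw [← hes, ← hes]
      have : dist y (v i₀) ^ 2 ≤ dist y (v i) ^ 2 := pow_le_pow_left₀ dist_nonneg (hy0 i) 2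
      linarith)
    (by
      rw [← het]
      have : 0 ≤ dist x (v i₀) ^ 2 := by positivity
      linarith)
    (by
      rw [← hes]
      have : 0 ≤ dist y (v i₀) ^ 2 := by positivity
      linarith)
  have hd : dist x y ^ 2 = (∑ i, (t i - s i) ^ 2) / 2 := by
    rw [hxt, hys]; exact dist_sq_comb hv ht hs
  have hsum : ∑ i, (t i - s i) ^ 2 = 2 - 2 * κ - 2 * ω - 2 * ∑ i, t i * s i := by
    have h1 : ∀ i, (t i - s i) ^ 2 = t i ^ 2 + s i ^ 2 - 2 * (t i * s i) := fun i => by ring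
    simp only [h1, sum_sub_distrib, sum_add_distrib, ← mul_sum, hT, hS]
    ring
  have hE : ∑ i, (t i + κ) * (s i + ω) = ∑ i, t i * s i + ω + κ + Fintype.card ι * (κ * ω) := by
    have h1 : ∀ i, (t i + κ) * (s i + ω) = t i * s i + ω * t i + κ * s i + κ * ω := fun i => by
      ring
    simp only [h1, sum_add_distrib, ← mul_sum, ht, hs, sum_const, card_univ, nsmul_eq_mul]
    ring
  rw [hE] at key
  have h1 : dist x y ^ 2 < 1 := by
    rw [hd, hsum]
    linarith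
  by_contra hcon
  rw [not_lt] at hcon
  have : (1 : ℝ) ^ 2 ≤ dist x y ^ 2 := pow_le_pow_left₀ zero_le_one hcon 2
  linarith

end Vale.Agent.P052.R3.H523
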