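import Mathlib

/-! A numerical inequality for pairs of points near a vertex of a regular simplex. -/

namespace Vale.Agent.P052.R3.H523

theorem tangent {nu p h : ℝ} (hp : 0 ≤ p) (hnu : nu ≤ 3)
    (h4 : h * (1 + h) ≤ p * (nu - p)) : h ≤ (p + 2) / 3 := by
  have e1 : h * (1 + h) ≤ p * (3 - p) := h4.trans (by nlinarith)
  by_contra hc
  rw [not_le] at hc
  nlinarith [sq_nonneg (p - 1), sq_nonneg (h - (p + 2) / 3)]

theorem le_nu {nu p h : ℝ} (hp : 0 < p) (hh : 0 ≤ h) (h4 : h * (1 + h) ≤ p * (nu - p)) :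
    p ≤ nu := by
  have e1 : 0 ≤ h * (1 + h) := by positivity
  have e2 : 0 ≤ p * (nu - p) := e1.trans h4
  have e3 : 0 ≤ nu - p := by
    by_contra hc
    rw [not_le] at hc
    have := mul_neg_of_pos_of_neg hp hc
    linarith
  linarith

theorem sum_le {nu p q : ℝ} (hnu0 : 0 ≤ nu) (hnu : nu ^ 2 ≤ 8) (hp : p ≤ nu) (hq : q ≤ nu)
    (h2 : 2 ≤ (nu - p) * (nu - q)) : p + q ≤ nu := by
  by_contra hc
  rw [not_le] at hc
  nlinarith [sq_nonneg (p - q), sq_nonneg (nu - (p + q) / 2)]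

theorem two_le {p q : ℝ} (hp : 0 < p) (hq : 0 < q) (h1 : 1 ≤ p * q) : 2 ≤ p + q := by
  have e1 : (2 : ℝ) ^ 2 ≤ (p + q) ^ 2 := by nlinarith [sq_nonneg (p - q)]
  exact (sq_le_sq₀ (by norm_num) (by positivity)).1 e1

theorem caseA {p r H m : ℝ} (hp : 0 < p) (hr : 0 < r) (hpr : p * r = 1) (hm : m = (p + 2) / 3)
    (hH0 : 0 ≤ (3 - p) * (3 - r) - 2) (_hH : 0 ≤ H) : m ^ 2 < 2 := by
  have e3 : p + r ≤ 8 / 3 := by nlinarith
  have e4 : p ≤ 2.22 := by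
    by_contra hcon
    rw [not_le] at hcon
    have e5 : p * (p + r) ≤ p * (8 / 3) := mul_le_mul_of_nonneg_left e3 hp.le
    nlinarith
  have e5 : 0 ≤ m := by rw [hm]; positivity
  have e6 : m ≤ 1.41 := by rw [hm]; linarith
  have e7 : m ^ 2 ≤ 1.41 ^ 2 := pow_le_pow_left₀ e5 e6 2
  norm_num at e7 ⊢
  linarith

theorem convexB {h k m H : ℝ} (hh : 0 ≤ h) (hk : 0 ≤ k) (hkh : k ≤ h) (hhm : h ≤ m)
    (hHs : h + k ≤ H) : h ^ 2 + k ^ 2 ≤ m ^ 2 + (H - m) ^ 2 := by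
  rcases le_total k (H - m) with hd | hd
  · have e1 : h ^ 2 ≤ m ^ 2 := pow_le_pow_left₀ hh hhm 2
    have e2 : k ^ 2 ≤ (H - m) ^ 2 := pow_le_pow_left₀ hk hd 2
    linarith
  · have e1 : h ^ 2 ≤ (H - k) ^ 2 := pow_le_pow_left₀ hh (by linarith) 2
    nlinarith [mul_nonneg (sub_nonneg.2 hd) (sub_nonneg.2 (hkh.trans hhm))]

theorem polyB {p r m : ℝ} (hp : 0 < p) (hpr : p * r = 1) (hm : m = (p + 2) / 3)
    (hc : m ≤ (3 - p) * (3 - r) - 2) :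
    m ^ 2 + ((3 - p) * (3 - r) - 2 - m) ^ 2 + (3 - p - r) ^ 2 ≤ 3 := by
  have e4 : 0 ≤ 22 * p - 10 * p ^ 2 - 9 := by
    have e6 : m * (3 * p) ≤ ((3 - p) * (3 - r) - 2) * (3 * p) :=
      mul_le_mul_of_nonneg_right hc (by positivity)
    have e7 : m * (3 * p) = p * (p + 2) := by rw [hm]; ring
    have e8 : ((3 - p) * (3 - r) - 2) * (3 * p) = 21 * p - 9 * (p * r) - 9 * p ^ 2 +
        3 * p * (p * r) := by ring
    rw [e7, e8, hpr] at e6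
    linarith
  have f1 : p * ((3 - p) * (3 - r) - 2 - m) = (22 * p - 10 * p ^ 2 - 9) / 3 := by
    have : p * ((3 - p) * (3 - r) - 2 - m) =
        (9 * p - 3 * (p * r) - 3 * p ^ 2 + p * (p * r)) - 2 * p - p * (p + 2) / 3 := by
      rw [hm]; ring
    rw [this, hpr]; ring
  have f2 : p * (3 - p - r) = 3 * p - p ^ 2 - 1 := by
    have : p * (3 - p - r) = 3 * p - p ^ 2 - p * r := by ring
    rw [this, hpr]
  have e9 : 9 * p ^ 2 * (m ^ 2 + ((3 - p) * (3 - r) - 2 - m) ^ 2 + (3 - p - r) ^ 2 - 3) =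
      10 * (p - 1) ^ 2 * (11 * p ^ 2 - 27 * p + 9) := by
    calc 9 * p ^ 2 * (m ^ 2 + ((3 - p) * (3 - r) - 2 - m) ^ 2 + (3 - p - r) ^ 2 - 3)
        = 9 * p ^ 2 * m ^ 2 + 9 * (p * ((3 - p) * (3 - r) - 2 - m)) ^ 2 +
          9 * (p * (3 - p - r)) ^ 2 - 27 * p ^ 2 := by ring
      _ = 10 * (p - 1) ^ 2 * (11 * p ^ 2 - 27 * p + 9) := by
          rw [f1, f2, hm]; ring
  have e10 : 11 * p ^ 2 - 27 * p + 9 ≤ 0 := by nlinarith
  have e11 : 9 * p ^ 2 * (m ^ 2 + ((3 - p) * (3 - r) - 2 - m) ^ 2 + (3 - p - r) ^ 2 - 3) ≤ 0 := by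
    rw [e9]
    exact mul_nonpos_of_nonneg_of_nonpos (by positivity) e10
  have e12 : m ^ 2 + ((3 - p) * (3 - r) - 2 - m) ^ 2 + (3 - p - r) ^ 2 - 3 ≤ 0 := by
    by_contra hcon
    rw [not_le] at hcon
    have : 0 < 9 * p ^ 2 * (m ^ 2 + ((3 - p) * (3 - r) - 2 - m) ^ 2 + (3 - p - r) ^ 2 - 3) :=
      mul_pos (by positivity) hcon
    linarith
  linarith

/-- the ordered form -/
theorem key_ord {nu p q h k : ℝ} (hnu0 : 0 ≤ nu) (hnu : nu ^ 2 ≤ 8) (hp : 0 ≤ p) (hq : 0 ≤ q)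
    (hh : 0 ≤ h) (hk : 0 ≤ k) (h1 : 1 ≤ p * q) (h2 : h + k + 2 ≤ (nu - p) * (nu - q))
    (h3 : 3 ≤ h ^ 2 + k ^ 2 + (nu - p - q) ^ 2) (h4 : h * (1 + h) ≤ p * (nu - p))
    (h5 : k * (1 + k) ≤ q * (nu - q)) (hkh : k ≤ h) : False := by
  have hnu3 : nu < 3 := by
    by_contra hc
    rw [not_lt] at hc
    nlinarith
  have hp0 : 0 < p := by
    rcases hp.eq_or_lt with h0 | h0
    · rw [← h0] at h1; linarith
    · exact h0
  have hq0 : 0 < q := by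
    rcases hq.eq_or_lt with h0 | h0
    · rw [← h0] at h1; linarith
    · exact h0
  have hpn : p ≤ nu := le_nu hp0 hh h4
  have hqn : q ≤ nu := le_nu hq0 hk h5
  have hs : p + q ≤ nu := sum_le hnu0 hnu hpn hqn (by linarith)
  have hs2 : 2 ≤ p + q := two_le hp0 hq0 h1
  obtain ⟨m, hm⟩ : ∃ m : ℝ, m = (p + 2) / 3 := ⟨_, rfl⟩
  obtain ⟨H, hH⟩ : ∃ H : ℝ, H = (3 - p) * (3 - q) - 2 := ⟨_, rfl⟩
  obtain ⟨r, hr⟩ : ∃ r : ℝ, r = 1 / p := ⟨_, rfl⟩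
  have hhm : h ≤ m := by rw [hm]; exact tangent hp hnu3.le h4
  have e1 : (nu - p) * (nu - q) ≤ (3 - p) * (3 - q) :=
    mul_le_mul (by linarith) (by linarith) (by linarith) (by linarith)
  have hHs : h + k ≤ H := by rw [hH]; linarith
  have hH0 : 0 ≤ H := by linarith
  have h3' : (nu - p - q) ^ 2 < (3 - p - q) ^ 2 :=
    pow_lt_pow_left₀ (by linarith) (by linarith) two_ne_zero
  have hpr : p * r = 1 := by rw [hr]; field_simp
  have hr0 : 0 < r := by rw [hr]; positivity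
  have hq' : r ≤ q := by
    rw [hr, div_le_iff₀ hp0]; linarith
  have hHr : H ≤ (3 - p) * (3 - r) - 2 := by
    rw [hH]
    have := mul_le_mul_of_nonneg_left (sub_le_sub_left hq' 3) (by linarith : (0:ℝ) ≤ 3 - p)
    linarith
  rcases le_total H m with hc | hc
  · have e1 : h ^ 2 + k ^ 2 ≤ m ^ 2 := by
      have f1 : (h + k) ^ 2 ≤ m ^ 2 := pow_le_pow_left₀ (by linarith) (by linarith) 2
      have f2 : 0 ≤ h * k := mul_nonneg hh hk
      linarith [add_sq h k]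
    have e2 : (nu - p - q) ^ 2 ≤ 1 := by
      have : (nu - p - q) ^ 2 ≤ 1 ^ 2 := pow_le_pow_left₀ (by linarith) (by linarith) 2
      linarith
    have e5 : m ^ 2 < 2 := caseA hp0 hr0 hpr hm (by linarith) hH0
    linarith
  · have e1 := convexB hh hk hkh hhm hHs
    have e2 : (H - m) ^ 2 ≤ ((3 - p) * (3 - r) - 2 - m) ^ 2 :=
      pow_le_pow_left₀ (by linarith) (by linarith) 2
    have e3 : (3 - p - q) ^ 2 ≤ (3 - p - r) ^ 2 :=
      pow_le_pow_left₀ (by linarith) (by linarith) 2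
    have e4 := polyB hp0 hpr hm (hc.trans hHr)
    linarith

/-- **Key inequality.** -/
theorem key {nu p q h k : ℝ} (hnu0 : 0 ≤ nu) (hnu : nu ^ 2 ≤ 8) (hp : 0 ≤ p) (hq : 0 ≤ q)
    (hh : 0 ≤ h) (hk : 0 ≤ k) (h1 : 1 ≤ p * q) (h2 : h + k + 2 ≤ (nu - p) * (nu - q))
    (h3 : 3 ≤ h ^ 2 + k ^ 2 + (nu - p - q) ^ 2) (h4 : h * (1 + h) ≤ p * (nu - p))
    (h5 : k * (1 + k) ≤ q * (nu - q)) : False := by
  rcases le_total k h with h6 | h6
  · exact key_ord hnu0 hnu hp hq hh hk h1 h2 h3 h4 h5 h6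
  · exact key_ord hnu0 hnu hq hp hk hh (by linarith) (by linarith)
      (by have : (nu - q - p) ^ 2 = (nu - p - q) ^ 2 := by ring
          linarith) h5 h4 h6

end Vale.Agent.P052.R3.H523
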